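import Vale.Agent.Lib.P328.RC.Defs

/-!
# P328 sampler: small facts on index pairs and degenerate sizes
-/

namespace P328S

open P335 P328RC Finset

theorem card_pr_fin (m : ℕ) : (pr (Fin m)).card = m.choose 2 := by
  unfold pr
  rw [Finset.card_filter, Fintype.sum_prod_type_right]
  have h : ∀ b : Fin m, ∑ a : Fin m, (if (a, b).1 < (a, b).2 then 1 else 0) = (b : ℕ) := by
    intro b
    rw [← Finset.card_filter]
    have : (univ.filter fun a : Fin m => (a, b).1 < (a, b).2) = Finset.Iio b := by
      ext a; simp
    rw [this, Fin.card_Iio]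
  simp only [h]
  rw [Fin.sum_univ_eq_sum_range (fun i => i) m, Finset.sum_range_id, Nat.choose_two_right]

theorem pr_fin_nonempty (m : ℕ) (hm : 2 ≤ m) : (pr (Fin m)).Nonempty := by
  rw [← Finset.card_pos, card_pr_fin]
  exact Nat.choose_pos hm

/-- with at most one row the table is determined by its column sums -/
theorem subsingleton_rows {m n : ℕ} (hm : m ≤ 1) (r : Fin m → ℕ) (c : Fin n → ℕ) :
    Subsingleton (Tab r c) := by
  refine ⟨fun X Y => Tab.ext fun i j => ?_⟩
  have hi : ∀ i' : Fin m, i' = i := fun i' => Fin.ext (by have := i.2; have := i'.2; omega)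
  have hX := X.2.2 j
  have hY := Y.2.2 j
  rw [Finset.sum_eq_single i (fun b _ hb => absurd (hi b) hb)
    (fun h => absurd (mem_univ i) h)] at hX hY
  rw [hX, hY]

/-- with at most one column the table is determined by its row sums -/
theorem subsingleton_cols {m n : ℕ} (hn : n ≤ 1) (r : Fin m → ℕ) (c : Fin n → ℕ) :
    Subsingleton (Tab r c) := by
  refine ⟨fun X Y => Tab.ext fun i j => ?_⟩
  have hj : ∀ j' : Fin n, j' = j := fun j' => Fin.ext (by have := j.2; have := j'.2; omega)
  have hX := X.2.1 i
  have hY := Y.2.1 i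
  rw [Finset.sum_eq_single j (fun b _ hb => absurd (hj b) hb)
    (fun h => absurd (mem_univ j) h)] at hX hY
  rw [hX, hY]

end P328S
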